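import Mathlib.Data.Set.Countable
import Mathlib.Algebra.Group.Subgroup.Map
import Mathlib.Algebra.BigOperators.Pi
import Mathlib.Algebra.BigOperators.Intervals
import Mathlib.Logic.Function.Basic
import Mathlib.Tactic

/-!
Towers of countable abelian groups: an elementary form of the open mapping theorem.
-/

universe u v

namespace Vale.Agent.P261

/-- The sequences which vanish below `m`. -/
def tailFrom (A : ℕ → Type u) [∀ k, AddCommGroup (A k)] (m : ℕ) : AddSubgroup (∀ k, A k) where
  carrier := {y | ∀ j, j < m → y j = 0}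
  zero_mem' := fun j _ => rfl
  add_mem' := fun {a b} ha hb j hj => by
    have h1 := ha j hj
    have h2 := hb j hj
    simp [h1, h2]
  neg_mem' := fun {a} ha j hj => by
    have h1 := ha j hj
    simp [h1]

lemma mem_tailFrom {A : ℕ → Type u} [∀ k, AddCommGroup (A k)] {m : ℕ} {y : ∀ k, A k} :
    y ∈ tailFrom A m ↔ ∀ j, j < m → y j = 0 := Iff.rfl

lemma tailFrom_anti {A : ℕ → Type u} [∀ k, AddCommGroup (A k)] {m m' : ℕ} (h : m ≤ m') :
    tailFrom A m' ≤ tailFrom A m := fun _ hy j hj => hy j (lt_of_lt_of_le hj h)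

/-- A homomorphism from a product of a sequence of groups to a countable group: the images of the
tails stabilize. -/
lemma stabilizes {A : ℕ → Type u} [∀ k, AddCommGroup (A k)] {B : Type v} [AddCommGroup B]
    [Countable B] (f : (∀ k, A k) →+ B) :
    ∃ m, ∀ m', m ≤ m' → (tailFrom A m').map f = (tailFrom A m).map f := by
  classical
  by_contra hcon
  push Not at hcon
  -- the bad indices
  let Bad : Set ℕ := {m | (tailFrom A (m + 1)).map f ≠ (tailFrom A m).map f}
  have hbad : ∀ m, ∃ m', m ≤ m' ∧ m' ∈ Bad := by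
    intro m
    by_contra h
    push Not at h
    obtain ⟨m', hm', hne⟩ := hcon m
    apply hne
    obtain ⟨k, rfl⟩ := Nat.exists_eq_add_of_le hm'
    clear hne hm'
    induction k with
    | zero => rfl
    | succ k ih =>
      have h1 := h (m + k) (Nat.le_add_right _ _)
      have h2 : (tailFrom A (m + k + 1)).map f = (tailFrom A (m + k)).map f := by
        by_contra h3
        exact h1 h3
      rw [← ih, ← h2]
      rfl
  have hinf : Bad.Infinite := by
    intro hfin
    obtain ⟨b, hb⟩ := hfin.bddAbove
    obtain ⟨m', h1, h2⟩ := hbad (b + 1)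
    have := hb h2
    omega
  have hex : ∀ m, ∃ y ∈ tailFrom A m, m ∈ Bad → f y ∉ (tailFrom A (m + 1)).map f := by
    intro m
    by_cases hm : m ∈ Bad
    · have hle : (tailFrom A (m + 1)).map f ≤ (tailFrom A m).map f :=
        AddSubgroup.map_mono (tailFrom_anti (Nat.le_succ m))
      have hlt : ¬ (tailFrom A m).map f ≤ (tailFrom A (m + 1)).map f :=
        fun h => hm (le_antisymm hle h)
      obtain ⟨z, hz, hz'⟩ := SetLike.not_le_iff_exists.mp hlt
      obtain ⟨y, hy, rfl⟩ := AddSubgroup.mem_map.mp hz
      exact ⟨y, hy, fun _ => hz'⟩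
    · exact ⟨0, zero_mem _, fun h => absurd h hm⟩
  choose y hy hyb using hex
  -- the infinite sums
  let Y : Set Bad → (∀ k, A k) := fun S j =>
    ∑ i ∈ Finset.range (j + 1), if (∃ h : i ∈ Bad, (⟨i, h⟩ : Bad) ∈ S) then y i j else 0
  have hYinj : Function.Injective (fun S => f (Y S)) := by
    intro S S' hSS
    by_contra hne
    -- the least index at which they differ
    have hdiff : ∃ i, ¬ ((∃ h : i ∈ Bad, (⟨i, h⟩ : Bad) ∈ S) ↔ ∃ h : i ∈ Bad, (⟨i, h⟩ : Bad) ∈ S') := by
      by_contra hall
      push Not at hall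
      apply hne
      ext ⟨i, hi⟩
      have := hall i
      constructor
      · intro h
        obtain ⟨_, h'⟩ := this.mp ⟨hi, h⟩
        exact h'
      · intro h
        obtain ⟨_, h'⟩ := this.mpr ⟨hi, h⟩
        exact h'
    let m := Nat.find hdiff
    have hm := Nat.find_spec hdiff
    have hmin : ∀ i, i < m → ((∃ h : i ∈ Bad, (⟨i, h⟩ : Bad) ∈ S) ↔
        ∃ h : i ∈ Bad, (⟨i, h⟩ : Bad) ∈ S') := by
      intro i hi
      by_contra h
      exact Nat.find_min hdiff hi h
    have hmBad : m ∈ Bad := by
      by_contra h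
      apply hm
      constructor
      · rintro ⟨h', _⟩; exact absurd h' h
      · rintro ⟨h', _⟩; exact absurd h' h
    -- sign
    have key : ∀ (T T' : Set Bad), (∀ i, i < m → ((∃ h : i ∈ Bad, (⟨i, h⟩ : Bad) ∈ T) ↔
        ∃ h : i ∈ Bad, (⟨i, h⟩ : Bad) ∈ T')) → (∃ h : m ∈ Bad, (⟨m, h⟩ : Bad) ∈ T) →
        (¬ ∃ h : m ∈ Bad, (⟨m, h⟩ : Bad) ∈ T') → f (Y T) = f (Y T') → False := by
      intro T T' hlt h1 h2 hf
      have hD : Y T - Y T' - y m ∈ tailFrom A (m + 1) := by
        intro j hj
        have hsum : ∀ i ∈ Finset.range (j + 1), i ≠ m →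
            ((if (∃ h : i ∈ Bad, (⟨i, h⟩ : Bad) ∈ T) then y i j else 0) =
            if (∃ h : i ∈ Bad, (⟨i, h⟩ : Bad) ∈ T') then y i j else 0) := by
          intro i hi him
          have : i < m := by
            rw [Finset.mem_range] at hi
            omega
          simp only [hlt i this]
        rcases Nat.lt_or_ge j m with hjm | hjm
        · have hyj : y m j = 0 := hy m j hjm
          have : Y T j = Y T' j := by
            refine Finset.sum_congr rfl (fun i hi => hsum i hi ?_)
            rw [Finset.mem_range] at hi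
            omega
          simp [this, hyj]
        · have hjm' : j = m := by omega
          rw [hjm']
          have e1 : Y T m = (∑ i ∈ Finset.range m,
              if (∃ h : i ∈ Bad, (⟨i, h⟩ : Bad) ∈ T) then y i m else 0) + y m m := by
            simp only [Y]
            rw [Finset.sum_range_succ, if_pos h1]
          have e2 : Y T' m = (∑ i ∈ Finset.range m,
              if (∃ h : i ∈ Bad, (⟨i, h⟩ : Bad) ∈ T') then y i m else 0) + 0 := by
            simp only [Y]
            rw [Finset.sum_range_succ, if_neg h2]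
          have e3 : (∑ i ∈ Finset.range m,
              if (∃ h : i ∈ Bad, (⟨i, h⟩ : Bad) ∈ T) then y i m else 0) =
              ∑ i ∈ Finset.range m,
              if (∃ h : i ∈ Bad, (⟨i, h⟩ : Bad) ∈ T') then y i m else 0 := by
            refine Finset.sum_congr rfl (fun i hi => ?_)
            rw [Finset.mem_range] at hi
            simp only [hlt i hi]
          simp only [Pi.sub_apply]
          rw [e1, e2, e3]
          abel
      apply hyb m hmBad
      refine AddSubgroup.mem_map.mpr ⟨-(Y T - Y T' - y m), neg_mem hD, ?_⟩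
      rw [map_neg, map_sub, map_sub, hf]
      abel
    by_cases h1 : ∃ h : m ∈ Bad, (⟨m, h⟩ : Bad) ∈ S
    · have h2 : ¬ ∃ h : m ∈ Bad, (⟨m, h⟩ : Bad) ∈ S' := fun h => hm ⟨fun _ => h, fun _ => h1⟩
      exact key S S' hmin h1 h2 hSS
    · have h2 : ∃ h : m ∈ Bad, (⟨m, h⟩ : Bad) ∈ S' := by
        by_contra h
        exact hm ⟨fun h' => absurd h' h1, fun h' => absurd h' h⟩
      exact key S' S (fun i hi => (hmin i hi).symm) h2 h1 hSS.symm
  -- cardinality contradiction
  have hInf : Infinite Bad := Set.infinite_coe_iff.mpr hinf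
  obtain ⟨g, hg⟩ := exists_injective_nat B
  have : Function.Injective (fun S : Set Bad => Infinite.natEmbedding Bad (g (f (Y S)))) :=
    (Infinite.natEmbedding Bad).injective.comp (hg.comp hYinj)
  exact Function.cantor_injective _ this

/-- **Tower lemma.** Let `⋯ → A 2 → A 1 → A 0` be a tower of countable abelian groups with finite
cokernels such that `x ↦ (x k - w (x (k + 1)))` is a bijection of `∏ A k`. Then `A 0` is finite. -/
theorem tower_finite {A : ℕ → Type u} [∀ k, AddCommGroup (A k)] (hc : ∀ k, Countable (A k))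
    (w : ∀ k, A (k + 1) →+ A k)
    (hcok : ∀ k, ∃ s : Set (A k), s.Finite ∧ ∀ a, ∃ b ∈ s, ∃ c, a = b + w k c)
    (hinj : ∀ x : ∀ k, A k, (∀ k, x k = w k (x (k + 1))) → ∀ k, x k = 0)
    (hsurj : ∀ y : ∀ k, A k, ∃ x : ∀ k, A k, ∀ k, x k = y k + w k (x (k + 1))) :
    Finite (A 0) := by
  classical
  choose F hF using hsurj
  have huniq : ∀ (x x' y : ∀ k, A k), (∀ k, x k = y k + w k (x (k + 1))) →
      (∀ k, x' k = y k + w k (x' (k + 1))) → x = x' := by
    intro x x' y h h'
    have := hinj (x - x') (fun k => by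
      rw [Pi.sub_apply, Pi.sub_apply, map_sub, h k, h' k]
      abel)
    funext k
    have h2 := this k
    rw [Pi.sub_apply, sub_eq_zero] at h2
    exact h2
  let f : (∀ k, A k) →+ (∀ k, A k) :=
    { toFun := F
      map_zero' := huniq _ _ 0 (hF 0) (fun k => by simp)
      map_add' := fun y y' => huniq _ _ (y + y') (hF _) (fun k => by
        rw [Pi.add_apply, Pi.add_apply, Pi.add_apply, map_add, hF y k, hF y' k]
        abel) }
  have hf : ∀ y k, f y k = y k + w k (f y (k + 1)) := hF
  let fk : ∀ k, (∀ k, A k) →+ A k := fun k => (Pi.evalAddMonoidHom A k).comp f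
  have hstab : ∀ k, ∃ m, ∀ m', m ≤ m' → (tailFrom A m').map (fk k) = (tailFrom A m).map (fk k) :=
    fun k => by
      have := hc k
      exact stabilizes (fk k)
  choose M hM using hstab
  -- the stable images are zero
  have hzero : ∀ a ∈ (tailFrom A (M 0)).map (fk 0), a = 0 := by
    intro a ha
    have hstep : ∀ k (b : A k), b ∈ (tailFrom A (M k)).map (fk k) →
        ∃ c : A (k + 1), c ∈ (tailFrom A (M (k + 1))).map (fk (k + 1)) ∧ b = w k c := by
      intro k b hb
      let m := max (M k) (max (M (k + 1)) (k + 1))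
      rw [← hM k m (le_max_left _ _)] at hb
      obtain ⟨y, hy, rfl⟩ := AddSubgroup.mem_map.mp hb
      refine ⟨fk (k + 1) y, ?_, ?_⟩
      · rw [← hM (k + 1) m (le_trans (le_max_left _ _) (le_max_right _ _))]
        exact AddSubgroup.mem_map_of_mem _ hy
      · have h1 : y k = 0 := hy k (lt_of_lt_of_le (Nat.lt_succ_self k)
          (le_trans (le_max_right _ _) (le_max_right _ _)))
        have h2 := hf y k
        rw [h1, zero_add] at h2
        exact h2
    choose! g hg1 hg2 using hstep
    let x : ∀ k, {b : A k // b ∈ (tailFrom A (M k)).map (fk k)} := fun k =>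
      Nat.rec ⟨a, ha⟩ (fun k b => ⟨g k b.1, hg1 k b.1 b.2⟩) k
    have hx : ∀ k, (x k).1 = w k (x (k + 1)).1 := fun k => hg2 k (x k).1 (x k).2
    exact hinj (fun k => (x k).1) hx 0
  -- finite covers
  have hcov : ∀ m, ∃ s : Set (A 0), s.Finite ∧ ∀ a, ∃ b ∈ s, a - b ∈ (tailFrom A m).map (fk 0) := by
    intro m
    induction m with
    | zero =>
      refine ⟨{0}, Set.finite_singleton _, fun a => ⟨0, rfl, ?_⟩⟩
      refine AddSubgroup.mem_map.mpr ⟨Pi.single 0 a, fun j hj => absurd hj (Nat.not_lt_zero j), ?_⟩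
      have : f (Pi.single 0 a) = Pi.single 0 a := by
        refine huniq _ _ (Pi.single 0 a) (hf _) (fun k => ?_)
        have h1 : (Pi.single 0 a : ∀ k, A k) (k + 1) = 0 := Pi.single_eq_of_ne (by omega) _
        rw [h1, map_zero, add_zero]
      change f (Pi.single 0 a) 0 = a - 0
      rw [this]
      simp
    | succ m ih =>
      obtain ⟨s, hs, hs'⟩ := ih
      obtain ⟨t, ht, ht'⟩ := hcok m
      refine ⟨Set.image2 (fun b c => b + fk 0 (Pi.single m c)) s t, hs.image2 _ ht, fun a => ?_⟩
      obtain ⟨b, hb, hab⟩ := hs' a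
      obtain ⟨y, hy, hy'⟩ := AddSubgroup.mem_map.mp hab
      obtain ⟨c, hc', e, he⟩ := ht' (y m)
      refine ⟨_, Set.mem_image2_of_mem hb hc', ?_⟩
      -- the corrected sequence
      let z : ∀ k, A k := fun k => y k - (Pi.single m c : ∀ k, A k) k
        + ((Pi.single (m + 1) e : ∀ k, A k) k - w k ((Pi.single (m + 1) e : ∀ k, A k) (k + 1)))
      have hz : z ∈ tailFrom A (m + 1) := by
        intro j hj
        rcases Nat.lt_or_ge j m with hjm | hjm
        · have h1 : y j = 0 := hy j hjm
          have h2 : (Pi.single m c : ∀ k, A k) j = 0 := Pi.single_eq_of_ne (by omega) _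
          have h3 : (Pi.single (m + 1) e : ∀ k, A k) j = 0 := Pi.single_eq_of_ne (by omega) _
          have h4 : (Pi.single (m + 1) e : ∀ k, A k) (j + 1) = 0 :=
            Pi.single_eq_of_ne (by omega) _
          simp only [z]
          rw [h1, h2, h3, h4]
          simp
        · have hjm' : j = m := by omega
          subst hjm'
          have h3 : (Pi.single (j + 1) e : ∀ k, A k) j = 0 := Pi.single_eq_of_ne (by omega) _
          simp only [z]
          rw [Pi.single_eq_same, Pi.single_eq_same, h3, he]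
          abel
      refine AddSubgroup.mem_map.mpr ⟨z, hz, ?_⟩
      have hfz : f z = f y - f (Pi.single m c) + Pi.single (m + 1) e := by
        refine huniq _ _ z (hf _) (fun k => ?_)
        simp only [Pi.add_apply, Pi.sub_apply, map_add, map_sub, z]
        rw [hf y k, hf (Pi.single m c) k]
        abel
      change f z 0 = a - (b + f (Pi.single m c) 0)
      have hy'' : f y 0 = a - b := hy'
      rw [hfz, Pi.add_apply, Pi.sub_apply, hy'']
      have h5 : (Pi.single (m + 1) e : ∀ k, A k) 0 = 0 := Pi.single_eq_of_ne (by omega) _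
      rw [h5]
      abel
  obtain ⟨s, hs, hs'⟩ := hcov (M 0)
  have : s = Set.univ := by
    rw [Set.eq_univ_iff_forall]
    intro a
    obtain ⟨b, hb, hab⟩ := hs' a
    have := hzero _ hab
    rw [sub_eq_zero] at this
    rwa [this]
  rw [this] at hs
  exact Set.finite_univ_iff.mp hs

end Vale.Agent.P261
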