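import Vale.Agent.P261.H260.Small
import Vale.Agent.P261.H260.Tower
import Mathlib.CategoryTheory.Triangulated.Functor
import Mathlib.CategoryTheory.Monoidal.Preadditive
import Mathlib.CategoryTheory.Limits.Shapes.Products
import Mathlib.CategoryTheory.Limits.Preserves.Basic

/-!
Tensor triangulated categories, Bousfield localizations, telescopes.
-/

set_option linter.unusedSectionVars false

open CategoryTheory Limits Pretriangulated MonoidalCategory

universe v u

namespace Vale.Agent.P261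

/-- A tensor triangulated category: a triangulated category with a tensor product which is
additive, commutes with the shift naturally in the second variable, and preserves distinguished
triangles in the second variable. -/
class TensorTriangulated (C : Type u) [Category.{v} C] [Preadditive C] [HasZeroObject C]
    [HasShift C ℤ] [∀ n : ℤ, (shiftFunctor C n).Additive] [Pretriangulated C]
    [MonoidalCategory C] extends MonoidalPreadditive C where
  /-- the natural isomorphism `X ⊗ Y[1] ≅ (X ⊗ Y)[1]` -/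
  shiftIso (X Y : C) : X ⊗ (Y⟦(1 : ℤ)⟧) ≅ (X ⊗ Y)⟦(1 : ℤ)⟧
  shiftIso_natural (X : C) {Y Z : C} (f : Y ⟶ Z) :
    (X ◁ f⟦(1 : ℤ)⟧') ≫ (shiftIso X Z).hom = (shiftIso X Y).hom ≫ (X ◁ f)⟦(1 : ℤ)⟧'
  distinguished (X : C) (T : Triangle C) (hT : T ∈ distTriang C) :
    Triangle.mk (X ◁ T.mor₁) (X ◁ T.mor₂) ((X ◁ T.mor₃) ≫ (shiftIso X T.obj₁).hom) ∈ distTriang C

variable {C : Type u} [Category.{v} C] [Preadditive C] [HasZeroObject C]
    [HasShift C ℤ] [∀ n : ℤ, (shiftFunctor C n).Additive] [Pretriangulated C]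
    [MonoidalCategory C]

/-- `Y` is local with respect to (the wedge of) the family `E`: every map to `Y` from an object
`W` with `E i ⊗ W = 0` for all `i` vanishes. -/
def IsLocal {ι : Type} (E : ι → C) (Y : C) : Prop :=
  ∀ W : C, (∀ i, IsZero (E i ⊗ W)) → ∀ g : W ⟶ Y, g = 0

/-- `f : X ⟶ Y` is the Bousfield localization of `X` with respect to (the wedge of) the family
`E`: it is an isomorphism after tensoring with every `E i`, and `Y` is `E`-local. -/
def IsBousfieldLocalization {ι : Type} (E : ι → C) {X Y : C} (f : X ⟶ Y) : Prop :=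
  (∀ i, IsIso (E i ◁ f)) ∧ IsLocal E Y

/-- The family `K 0, …, K j`. -/
def upTo (K : ℕ → C) (j : ℕ) : Fin (j + 1) → C := fun i => K i

variable [TensorTriangulated C]

lemma isZero_of_isZero_shift {X : C} (a : ℤ) (h : IsZero (X⟦a⟧)) : IsZero X := by
  rw [IsZero.iff_id_eq_zero] at h ⊢
  apply (shiftFunctor C a).map_injective
  rw [CategoryTheory.Functor.map_id, Functor.map_zero]
  exact h

lemma isZero_shift' {X : C} (h : IsZero X) (a : ℤ) : IsZero (X⟦a⟧) :=
  (shiftFunctor C a).map_isZero h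

lemma isZero_tensor_of_iso {E W W' : C} (h : IsZero (E ⊗ W)) (e : W ≅ W') : IsZero (E ⊗ W') :=
  h.of_iso (whiskerLeftIso E e).symm

lemma isZero_tensor_shift_one {E W : C} (h : IsZero (E ⊗ W)) : IsZero (E ⊗ (W⟦(1 : ℤ)⟧)) :=
  (isZero_shift' h 1).of_iso (TensorTriangulated.shiftIso E W)

lemma isZero_tensor_shift_neg_one {E W : C} (h : IsZero (E ⊗ W)) :
    IsZero (E ⊗ (W⟦(-1 : ℤ)⟧)) := by
  apply isZero_of_isZero_shift 1
  refine IsZero.of_iso ?_ (TensorTriangulated.shiftIso E (W⟦(-1 : ℤ)⟧)).symm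
  exact isZero_tensor_of_iso h (shiftNegShift W (1 : ℤ)).symm

lemma isZero_tensor_shift {E W : C} (h : IsZero (E ⊗ W)) (a : ℤ) : IsZero (E ⊗ (W⟦a⟧)) := by
  induction a using Int.induction_on with
  | zero => exact isZero_tensor_of_iso h ((shiftFunctorZero C ℤ).app W).symm
  | succ a ih =>
    exact isZero_tensor_of_iso (isZero_tensor_shift_one ih)
      ((shiftFunctorAdd C (a : ℤ) 1).app W).symm
  | pred a ih =>
    exact isZero_tensor_of_iso (isZero_tensor_shift_neg_one ih)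
      ((shiftFunctorAdd C (-(a : ℤ)) (-1)).app W).symm

/-- A map whose first shift becomes zero after tensoring with `E`. -/
lemma whisker_shift_one_eq_zero_iff {E W W' : C} (f : W ⟶ W') :
    E ◁ (f⟦(1 : ℤ)⟧') = 0 ↔ E ◁ f = 0 := by
  have h := TensorTriangulated.shiftIso_natural E f
  constructor
  · intro h0
    rw [h0, zero_comp] at h
    have h1 : (E ◁ f)⟦(1 : ℤ)⟧' = 0 := by
      rw [← cancel_epi (TensorTriangulated.shiftIso E W).hom, ← h, comp_zero]
    apply (shiftFunctor C (1 : ℤ)).map_injective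
    rw [h1, Functor.map_zero]
  · intro h0
    rw [h0, Functor.map_zero, comp_zero] at h
    rw [← cancel_mono (TensorTriangulated.shiftIso E W').hom, h, zero_comp]

lemma whisker_eq_zero_of_conj {E W W' V V' : C} {f : W ⟶ W'} {g : V ⟶ V'} (e : W ≅ V)
    (e' : W' ≅ V') (h : f ≫ e'.hom = e.hom ≫ g) (hf : E ◁ f = 0) : E ◁ g = 0 := by
  have h1 : g = e.inv ≫ f ≫ e'.hom := by rw [h]; simp
  rw [h1, MonoidalCategory.whiskerLeft_comp, MonoidalCategory.whiskerLeft_comp, hf]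
  simp

lemma whisker_shift_neg_one_eq_zero {E W W' : C} {f : W ⟶ W'} (hf : E ◁ f = 0) :
    E ◁ (f⟦(-1 : ℤ)⟧') = 0 := by
  rw [← whisker_shift_one_eq_zero_iff]
  refine whisker_eq_zero_of_conj (shiftNegShift W (1 : ℤ)).symm (shiftNegShift W' (1 : ℤ)).symm
    ?_ hf
  exact (shiftFunctorCompIsoId C (-1 : ℤ) 1 (by simp)).inv.naturality f

lemma whisker_shift_eq_zero {E W W' : C} {f : W ⟶ W'} (hf : E ◁ f = 0) (a : ℤ) :
    E ◁ (f⟦a⟧') = 0 := by
  induction a using Int.induction_on with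
  | zero =>
    exact whisker_eq_zero_of_conj ((shiftFunctorZero C ℤ).app W).symm
      ((shiftFunctorZero C ℤ).app W').symm ((shiftFunctorZero C ℤ).inv.naturality f) hf
  | succ a ih =>
    exact whisker_eq_zero_of_conj ((shiftFunctorAdd C (a : ℤ) 1).app W).symm
      ((shiftFunctorAdd C (a : ℤ) 1).app W').symm
      ((shiftFunctorAdd C (a : ℤ) 1).inv.naturality f)
      ((whisker_shift_one_eq_zero_iff _).mpr ih)
  | pred a ih =>
    exact whisker_eq_zero_of_conj ((shiftFunctorAdd C (-(a : ℤ)) (-1)).app W).symm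
      ((shiftFunctorAdd C (-(a : ℤ)) (-1)).app W').symm
      ((shiftFunctorAdd C (-(a : ℤ)) (-1)).inv.naturality f)
      (whisker_shift_neg_one_eq_zero ih)

section local'

variable {ι : Type} {E : ι → C}

lemma IsLocal.shift {Y : C} (h : IsLocal E Y) (a : ℤ) : IsLocal E (Y⟦a⟧) := by
  intro W hW g
  obtain ⟨g', hg'⟩ := (adjAdd (-a) W Y).surjective (g ≫ eqToHom (by rw [neg_neg]))
  have h1 := h (W⟦-a⟧) (fun i => isZero_tensor_shift (hW i) _) g'
  rw [h1, map_zero] at hg'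
  rw [← cancel_mono (eqToHom (by rw [neg_neg]) : Y⟦a⟧ ⟶ Y⟦-(-a)⟧), ← hg', zero_comp]

lemma IsLocal.of_iso {Y Y' : C} (h : IsLocal E Y) (e : Y ≅ Y') : IsLocal E Y' := by
  intro W hW g
  have := h W hW (g ≫ e.inv)
  rw [← cancel_mono e.inv, this, zero_comp]

lemma IsLocal.obj₂ {T : Triangle C} (hT : T ∈ distTriang C) (h₁ : IsLocal E T.obj₁)
    (h₃ : IsLocal E T.obj₃) : IsLocal E T.obj₂ := by
  intro W hW g
  obtain ⟨f, hf⟩ := Triangle.coyoneda_exact₂ T hT g (h₃ W hW _)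
  rw [hf, h₁ W hW f, zero_comp]

lemma IsLocal.obj₃ {T : Triangle C} (hT : T ∈ distTriang C) (h₁ : IsLocal E T.obj₁)
    (h₂ : IsLocal E T.obj₂) : IsLocal E T.obj₃ :=
  IsLocal.obj₂ (rot_of_distTriang T hT) h₂ (h₁.shift 1)

lemma IsLocal.obj₁ {T : Triangle C} (hT : T ∈ distTriang C) (h₂ : IsLocal E T.obj₂)
    (h₃ : IsLocal E T.obj₃) : IsLocal E T.obj₁ :=
  IsLocal.obj₂ (inv_rot_of_distTriang T hT) (h₃.shift (-1)) h₂

/-- The cone of an `E`-equivalence is `E`-acyclic. -/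
lemma isZero_tensor_cone {T : Triangle C} (hT : T ∈ distTriang C) {K : C}
    (h : IsIso (K ◁ T.mor₁)) : IsZero (K ⊗ T.obj₃) :=
  (Triangle.isZero₃_iff_isIso₁ _ (TensorTriangulated.distinguished K _ hT)).2 h

lemma isIso_of_isZero_tensor_cone {T : Triangle C} (hT : T ∈ distTriang C) {K : C}
    (h : IsZero (K ⊗ T.obj₃)) : IsIso (K ◁ T.mor₁) :=
  (Triangle.isZero₃_iff_isIso₁ _ (TensorTriangulated.distinguished K _ hT)).1 h

/-- Maps to local objects extend along `E`-equivalences. -/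
lemma exists_extension_of_equivalence {X Y Z : C} (f : X ⟶ Y) (hf : ∀ i, IsIso (E i ◁ f))
    (hZ : IsLocal E Z) (α : X ⟶ Z) : ∃ β : Y ⟶ Z, f ≫ β = α := by
  obtain ⟨W, g, h, hT⟩ := distinguished_cocone_triangle f
  have hW : ∀ i, IsZero (E i ⊗ W) := fun i => isZero_tensor_cone hT (hf i)
  obtain ⟨β, hβ⟩ := exists_extension hT α ((hZ.shift 1) W hW _)
  exact ⟨β, hβ.symm⟩

/-- An `E`-equivalence between `E`-local objects is an isomorphism. -/
lemma isIso_of_equivalence {X Y : C} (f : X ⟶ Y) (hf : ∀ i, IsIso (E i ◁ f))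
    (hX : IsLocal E X) (hY : IsLocal E Y) : IsIso f := by
  obtain ⟨W, g, h, hT⟩ := distinguished_cocone_triangle f
  have hW : ∀ i, IsZero (E i ⊗ W) := fun i => isZero_tensor_cone hT (hf i)
  have hW' : IsLocal E W := IsLocal.obj₃ hT hX hY
  have h0 : IsZero W := by
    rw [IsZero.iff_id_eq_zero]
    exact hW' W hW _
  exact (Triangle.isZero₃_iff_isIso₁ _ hT).1 h0

/-- Uniqueness of localizations. -/
lemma IsBousfieldLocalization.nonempty_iso {X Y Y' : C} {f : X ⟶ Y} {f' : X ⟶ Y'}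
    (h : IsBousfieldLocalization E f) (h' : IsBousfieldLocalization E f') : Nonempty (Y ≅ Y') := by
  obtain ⟨β, hβ⟩ := exists_extension_of_equivalence f h.1 h'.2 f'
  have : ∀ i, IsIso (E i ◁ β) := by
    intro i
    have h1 := h.1 i
    have h2 := h'.1 i
    rw [← hβ, MonoidalCategory.whiskerLeft_comp] at h2
    exact IsIso.of_isIso_comp_left (E i ◁ f) (E i ◁ β)
  have := isIso_of_equivalence β this h.2 h'.2
  exact ⟨asIso β⟩

end local'

/-! ### Telescopes -/

section telescope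

variable [HasCoproductsOfShape ℕ C] [∀ X : C, PreservesColimitsOfShape (Discrete ℕ) (tensorLeft X)]

/-- If the maps `s k : E k ⟶ E (k + 1)` become zero after tensoring with `K` and `Z` is `K`-local,
then `x ↦ (x k - s k ≫ x (k + 1))` is a bijection of `∏ [E k, Z]`. -/
lemma telescope {K Z : C} (hZ : IsLocal (fun _ : Unit => K) Z) (E : ℕ → C)
    (s : ∀ k, E k ⟶ E (k + 1)) (hs : ∀ k, K ◁ s k = 0) :
    (∀ x : ∀ k, E k ⟶ Z, (∀ k, x k = s k ≫ x (k + 1)) → ∀ k, x k = 0) ∧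
    (∀ y : ∀ k, E k ⟶ Z, ∃ x : ∀ k, E k ⟶ Z, ∀ k, x k = y k + s k ≫ x (k + 1)) := by
  let T : (∐ E) ⟶ ∐ E := Sigma.desc (fun k => s k ≫ Sigma.ι E (k + 1))
  have hT : ∀ k, Sigma.ι E k ≫ T = s k ≫ Sigma.ι E (k + 1) := fun k => by simp [T]
  have hKT : K ◁ T = 0 := by
    have hc := isColimitOfPreserves (tensorLeft K) (coproductIsCoproduct E)
    refine hc.hom_ext (fun ⟨k⟩ => ?_)
    change (K ◁ Sigma.ι E k) ≫ (K ◁ T) = (K ◁ Sigma.ι E k) ≫ 0
    rw [← MonoidalCategory.whiskerLeft_comp, hT, MonoidalCategory.whiskerLeft_comp, hs, zero_comp,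
      comp_zero]
  obtain ⟨W, g, h, hW⟩ := distinguished_cocone_triangle (𝟙 (∐ E) - T)
  have hiso : IsIso (K ◁ (𝟙 (∐ E) - T)) := by
    have : K ◁ (𝟙 (∐ E) - T) = 𝟙 _ := by
      have h1 : K ◁ (𝟙 (∐ E) - T) = K ◁ (𝟙 (∐ E)) - K ◁ T := (tensorLeft K).map_sub
      rw [h1, hKT, sub_zero, MonoidalCategory.whiskerLeft_id]
    rw [this]
    infer_instance
  have hac : ∀ i : Unit, IsZero ((fun _ : Unit => K) i ⊗ W) := fun _ => isZero_tensor_cone hW hiso
  constructor
  · intro x hx k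
    have h1 : (𝟙 (∐ E) - T) ≫ Sigma.desc x = 0 := by
      apply Sigma.hom_ext
      intro k
      rw [Preadditive.sub_comp, Preadditive.comp_sub, Category.id_comp, ← Category.assoc, hT,
        Category.assoc, comp_zero]
      simp only [Sigma.ι_desc]
      rw [← hx k, sub_self]
    obtain ⟨ψ, hψ⟩ : ∃ ψ : W ⟶ Z, Sigma.desc x = g ≫ ψ := Triangle.yoneda_exact₂ _ hW _ h1
    have h2 : ψ = 0 := hZ W hac ψ
    rw [h2, comp_zero] at hψ
    have h3 : Sigma.ι E k ≫ Sigma.desc x = 0 := by rw [hψ, comp_zero]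
    rwa [Sigma.ι_desc] at h3
  · intro y
    obtain ⟨φ, hφ'⟩ : ∃ φ : (∐ E) ⟶ Z, Sigma.desc y = (𝟙 (∐ E) - T) ≫ φ :=
      exists_extension hW (Sigma.desc y) ((hZ.shift 1) W hac _)
    refine ⟨fun k => Sigma.ι E k ≫ φ, fun k => ?_⟩
    have h1 : Sigma.ι E k ≫ Sigma.desc y = Sigma.ι E k ≫ (𝟙 (∐ E) - T) ≫ φ := by rw [hφ']
    rw [Sigma.ι_desc, Preadditive.sub_comp, Preadditive.comp_sub, Category.id_comp,
      ← Category.assoc (Sigma.ι E k) T, hT, Category.assoc] at h1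
    rw [h1]
    abel

/-- The finiteness step. -/
theorem finite_step {K Z : C} (hZ : IsLocal (fun _ : Unit => K) Z) {W W' : C} {d : ℤ}
    {w : W⟦d⟧ ⟶ W} {g : W ⟶ W'} {e : W' ⟶ (W⟦d⟧)⟦(1 : ℤ)⟧}
    (hT : Triangle.mk w g e ∈ distTriang C) (hw : K ◁ w = 0)
    (hW' : SmallHom (fun A => Finite A) W' Z) (hW : SmallHom (fun A => Countable A) W Z) :
    SmallHom (fun A => Finite A) W Z := by
  intro t
  -- the tower
  have hab : ∀ k : ℕ, d + (t - (k + 1 : ℕ) * d) = t - (k : ℤ) * d := fun k => by push_cast; ring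
  let A : ℕ → C := fun k => W⟦t - (k : ℤ) * d⟧
  let s : ∀ k, A k ⟶ A (k + 1) := fun k => shiftMap w (t - (k : ℤ) * d) (t - (k + 1 : ℕ) * d) (hab k)
  have hs : ∀ k, K ◁ s k = 0 := by
    intro k
    change K ◁ ((shiftFunctorAdd' C d _ _ (hab k)).hom.app W ≫ w⟦_⟧') = 0
    rw [MonoidalCategory.whiskerLeft_comp, whisker_shift_eq_zero hw, comp_zero]
  obtain ⟨h1, h2⟩ := telescope hZ A s hs
  have h3 : Finite (A 0 ⟶ Z) := by
    refine tower_finite (A := fun k => (A k ⟶ Z)) (fun k => hW _)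
      (fun k => AddMonoidHom.mk' (fun φ : A (k + 1) ⟶ Z => s k ≫ φ) (fun f g => by simp))
      (fun k => ?_) h1 h2
    have hfin : Finite (W' ⟶ (Z⟦-(t - (k + 1 : ℕ) * d)⟧)⟦(1 : ℤ)⟧) :=
      (smallHom_iff isSmallness_finite).mp (hW'.shift_right isSmallness_finite _) 1
    exact exists_finite_cover (fun φ : A (k + 1) ⟶ Z => s k ≫ φ)
      (cokerMap e Z (t - (k : ℤ) * d) (t - (k + 1 : ℕ) * d) (hab k))
      (fun a ha => exists_of_cokerMap_eq_zero hT _ _ _ a ha)
  have h4 : t - ((0 : ℕ) : ℤ) * d = t := by simp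
  have h5 : A 0 = W⟦t⟧ := by simp [A]
  rwa [h5] at h3

end telescope

end Vale.Agent.P261
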