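import Mathlib.NumberTheory.Padics.RingHoms
import Mathlib.RingTheory.Noetherian.Basic
import Mathlib.RingTheory.PrincipalIdealDomain
import Mathlib.Algebra.Module.Torsion.Basic
import Mathlib.Analysis.SpecificLimits.Normed
import Mathlib.Tactic

/-!
Derived `p`-complete abelian groups with finite reduction modulo `p` are finitely generated
`ℤ_p`-modules.
-/

universe u

namespace Vale.Agent.P261

section

variable (p : ℕ) [hp : Fact p.Prime]

lemma padic_solve (y : ℕ → ℤ_[p]) :
    ∃ z : ℕ → ℤ_[p], ∀ k, z k = y k + (p : ℤ_[p]) * z (k + 1) := by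
  have hp1 : (1 : ℝ) < p := by exact_mod_cast hp.out.one_lt
  have hsum : ∀ k, Summable (fun i => (p : ℤ_[p]) ^ i * y (k + i)) := by
    intro k
    refine Summable.of_norm_bounded (g := fun i => ((p : ℝ)⁻¹) ^ i)
      (summable_geometric_of_lt_one (by positivity) (inv_lt_one_of_one_lt₀ hp1)) (fun i => ?_)
    rw [norm_mul, PadicInt.norm_p_pow]
    calc (p : ℝ) ^ (-(i : ℤ)) * ‖y (k + i)‖ ≤ (p : ℝ) ^ (-(i : ℤ)) * 1 :=
          mul_le_mul_of_nonneg_left (PadicInt.norm_le_one _) (by positivity)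
      _ = ((p : ℝ)⁻¹) ^ i := by rw [mul_one, zpow_neg, zpow_natCast, inv_pow]
  refine ⟨fun k => ∑' i, (p : ℤ_[p]) ^ i * y (k + i), fun k => ?_⟩
  beta_reduce
  rw [(hsum k).tsum_eq_zero_add, ← (hsum (k + 1)).tsum_mul_left]
  congr 1
  · simp
  · refine tsum_congr (fun i => ?_)
    rw [pow_succ', mul_assoc, show k + (i + 1) = k + 1 + i by ring]

lemma exists_digit (z : ℤ_[p]) : ∃ (c : ℤ) (z' : ℤ_[p]), z = (c : ℤ_[p]) + (p : ℤ_[p]) * z' := by
  have h := PadicInt.appr_spec 1 z
  rw [pow_one, Ideal.mem_span_singleton'] at h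
  obtain ⟨a, ha⟩ := h
  refine ⟨(z.appr 1 : ℤ), a, ?_⟩
  rw [mul_comm, ha]
  push_cast
  ring

lemma exists_expansion (z : ℤ_[p]) : ∃ (ζ : ℕ → ℤ_[p]) (c : ℕ → ℤ), ζ 0 = z ∧
    ∀ k, ζ k = (c k : ℤ_[p]) + (p : ℤ_[p]) * ζ (k + 1) := by
  choose c z' h using exists_digit p
  let ζ : ℕ → ℤ_[p] := fun k => Nat.rec z (fun _ w => z' w) k
  exact ⟨ζ, fun k => c (ζ k), rfl, fun k => h (ζ k)⟩

variable {A : Type u} [AddCommGroup A]

/-- Additive maps from `ℤ_p` to a group with `Hom(ℤ[1/p], A) = 0` are determined by the value at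
one. -/
lemma padic_ext (hinj : ∀ x : ℕ → A, (∀ k, x k = p • x (k + 1)) → ∀ k, x k = 0)
    (g : ℤ_[p] →+ A) (h1 : g 1 = 0) (z : ℤ_[p]) : g z = 0 := by
  obtain ⟨ζ, c, h0, hk⟩ := exists_expansion p z
  have := hinj (fun k => g (ζ k)) (fun k => by
    rw [hk k, map_add]
    have e1 : g ((c k : ℤ_[p])) = 0 := by
      have : ((c k : ℤ_[p])) = (c k) • (1 : ℤ_[p]) := by simp
      rw [this, map_zsmul, h1, smul_zero]
    have e2 : (p : ℤ_[p]) * ζ (k + 1) = p • ζ (k + 1) := by simp
    rw [e1, e2, map_nsmul, zero_add]) 0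
  rwa [h0] at this

/-- Independence of the choices in the definition of the multiplication by a `p`-adic integer. -/
lemma padic_indep (hinj : ∀ x : ℕ → A, (∀ k, x k = p • x (k + 1)) → ∀ k, x k = 0)
    (a : A) (δ : ℕ → ℤ_[p]) (e : ℕ → ℤ) (x : ℕ → A) (h0 : δ 0 = 0)
    (hδ : ∀ k, δ k = (e k : ℤ_[p]) + (p : ℤ_[p]) * δ (k + 1))
    (hx : ∀ k, x k = e k • a + p • x (k + 1)) : x 0 = 0 := by
  have hpne : (p : ℤ_[p]) ≠ 0 := by exact_mod_cast hp.out.ne_zero
  have hint : ∀ k, ∃ n : ℤ, δ k = (n : ℤ_[p]) := by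
    intro k
    induction k with
    | zero => exact ⟨0, by simpa using h0⟩
    | succ k ih =>
      obtain ⟨n, hn⟩ := ih
      have h1 : ((n - e k : ℤ) : ℤ_[p]) = (p : ℤ_[p]) * δ (k + 1) := by
        push_cast
        rw [← hn, hδ k]
        ring
      have h2 : (p : ℤ_[p]) ^ 1 ∣ ((n - e k : ℤ) : ℤ_[p]) := by
        rw [pow_one, h1]
        exact dvd_mul_right _ _
      rw [PadicInt.pow_p_dvd_int_iff] at h2
      obtain ⟨m, hm⟩ := h2
      refine ⟨m, ?_⟩
      rw [hm] at h1
      apply mul_left_cancel₀ hpne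
      rw [← h1]
      push_cast
      ring
  choose n hn using hint
  have hn0 : n 0 = 0 := by
    have := hn 0
    rw [h0] at this
    exact_mod_cast this.symm
  have hrec : ∀ k, n k = e k + p * n (k + 1) := by
    intro k
    have h1 := hδ k
    rw [hn k, hn (k + 1)] at h1
    exact_mod_cast h1
  have := hinj (fun k => x k - n k • a) (fun k => by
    rw [hx k, hrec k, add_smul, mul_smul, smul_sub, natCast_zsmul]
    abel) 0
  simpa [hn0] using this

/-- **Derived complete groups.** If `x ↦ (x k - p x (k+1))` is a bijection of `A^ℕ` and `A/p` is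
finite, then `A` is a finitely generated `ℤ_p`-module. -/
theorem exists_module_finite
    (hfin : ∃ s : Set A, s.Finite ∧ ∀ a, ∃ b ∈ s, ∃ c, a = b + p • c)
    (hinj : ∀ x : ℕ → A, (∀ k, x k = p • x (k + 1)) → ∀ k, x k = 0)
    (hsurj : ∀ y : ℕ → A, ∃ x : ℕ → A, ∀ k, x k = y k + p • x (k + 1)) :
    ∃ _ : Module ℤ_[p] A, Module.Finite ℤ_[p] A := by
  classical
  choose ζ c hζ0 hζ using exists_expansion p
  have hex : ∀ (z : ℤ_[p]) (a : A), ∃ x : ℕ → A, ∀ k, x k = c z k • a + p • x (k + 1) :=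
    fun z a => hsurj (fun k => c z k • a)
  choose X hX using hex
  -- characterization
  have hchar : ∀ (z : ℤ_[p]) (a : A) (ζ' : ℕ → ℤ_[p]) (c' : ℕ → ℤ) (x' : ℕ → A), ζ' 0 = z →
      (∀ k, ζ' k = (c' k : ℤ_[p]) + (p : ℤ_[p]) * ζ' (k + 1)) →
      (∀ k, x' k = c' k • a + p • x' (k + 1)) → x' 0 = X z a 0 := by
    intro z a ζ' c' x' h0 h1 h2
    have := padic_indep p hinj a (fun k => ζ' k - ζ z k) (fun k => c' k - c z k)
      (fun k => x' k - X z a k) (by simp [h0, hζ0 z]) (fun k => by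
        rw [h1 k, hζ z k]; push_cast; ring) (fun k => by
        rw [h2 k, hX z a k, sub_smul, smul_sub]; abel)
    exact sub_eq_zero.mp this
  have hone : ∀ a : A, X 1 a 0 = a := by
    intro a
    refine (hchar 1 a (fun k => if k = 0 then 1 else 0) (fun k => if k = 0 then 1 else 0)
      (fun k => if k = 0 then a else 0) (by simp) (fun k => ?_) (fun k => ?_)).symm.trans (by simp)
    · by_cases hk : k = 0 <;> simp [hk]
    · by_cases hk : k = 0 <;> simp [hk]
  have hadd : ∀ (z : ℤ_[p]) (a b : A), X z (a + b) 0 = X z a 0 + X z b 0 := by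
    intro z a b
    refine (hchar z (a + b) (ζ z) (c z) (fun k => X z a k + X z b k) (hζ0 z) (hζ z)
      (fun k => ?_)).symm
    rw [hX z a k, hX z b k, smul_add, smul_add]
    abel
  have hadd' : ∀ (z w : ℤ_[p]) (a : A), X (z + w) a 0 = X z a 0 + X w a 0 := by
    intro z w a
    refine (hchar (z + w) a (fun k => ζ z k + ζ w k) (fun k => c z k + c w k)
      (fun k => X z a k + X w a k) (by simp [hζ0]) (fun k => ?_) (fun k => ?_)).symm
    · rw [hζ z k, hζ w k]; push_cast; ring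
    · rw [hX z a k, hX w a k, add_smul, smul_add]
      abel
  have hz0 : ∀ a : A, X 0 a 0 = 0 := by
    intro a
    have := hadd' 0 0 a
    rw [add_zero] at this
    exact left_eq_add.mp this
  have h0a : ∀ z : ℤ_[p], X z 0 0 = 0 := by
    intro z
    have := hadd z 0 0
    rw [add_zero] at this
    exact left_eq_add.mp this
  have hmul : ∀ (z w : ℤ_[p]) (a : A), X (z * w) a 0 = X z (X w a 0) 0 := by
    intro z w a
    let g : ℤ_[p] →+ A :=
      { toFun := fun z => X (z * w) a 0 - X z (X w a 0) 0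
        map_zero' := by simp [hz0]
        map_add' := fun z z' => by
          rw [add_mul, hadd', hadd']
          abel }
    have h := padic_ext p hinj g (by
      change X (1 * w) a 0 - X 1 (X w a 0) 0 = 0
      rw [one_mul, hone, sub_self]) z
    exact sub_eq_zero.mp h
  let inst : Module ℤ_[p] A :=
    { smul := fun z a => X z a 0
      one_smul := hone
      mul_smul := hmul
      smul_zero := h0a
      smul_add := hadd
      add_smul := hadd'
      zero_smul := hz0 }
  refine ⟨inst, ?_⟩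
  have hp_smul : ∀ a : A, (p : ℤ_[p]) • a = p • a := fun a => Nat.cast_smul_eq_nsmul _ _ _
  obtain ⟨s, hs, hs'⟩ := hfin
  choose b hb c' hc' using hs'
  refine ⟨⟨hs.toFinset, ?_⟩⟩
  rw [eq_top_iff]
  intro a _
  rw [Set.Finite.coe_toFinset]
  -- the expansion of `a`
  let α : ℕ → A := fun k => Nat.rec a (fun _ w => c' w) k
  have hα : ∀ k, α k = b (α k) + p • α (k + 1) := fun k => hc' (α k)
  have hz : ∀ g : A, ∃ z : ℕ → ℤ_[p], ∀ k, z k = (if b (α k) = g then 1 else 0)
      + (p : ℤ_[p]) * z (k + 1) := fun g => padic_solve p _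
  choose z hz using hz
  have hx : ∀ k, ∑ g ∈ hs.toFinset, z g k • g = b (α k) + p • ∑ g ∈ hs.toFinset, z g (k + 1) • g := by
    intro k
    have h1 : ∀ g ∈ hs.toFinset, z g k • g = (if b (α k) = g then g else 0)
        + p • (z g (k + 1) • g) := by
      intro g _
      rw [hz g k, add_smul, mul_smul, hp_smul]
      congr 1
      split_ifs <;> simp
    rw [Finset.sum_congr rfl h1, Finset.sum_add_distrib, Finset.sum_ite_eq, if_pos,
      Finset.smul_sum]
    rw [Set.Finite.mem_toFinset]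
    exact hb _
  have h2 := hinj (fun k => α k - ∑ g ∈ hs.toFinset, z g k • g) (fun k => by
    rw [hx k]
    nth_rewrite 1 [hα k]
    rw [smul_sub]
    abel) 0
  have h3 : a = ∑ g ∈ hs.toFinset, z g 0 • g := sub_eq_zero.mp h2
  rw [h3]
  refine Submodule.sum_mem _ (fun g hg => Submodule.smul_mem _ _ (Submodule.subset_span ?_))
  rwa [Set.Finite.mem_toFinset] at hg

/-- A finitely generated `ℤ_p`-module killed by `p` is finite. -/
lemma finite_of_smul_eq_zero (N : Type u) [AddCommGroup N] [Module ℤ_[p] N]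
    [Module.Finite ℤ_[p] N] (h : ∀ x : N, p • x = 0) : Finite N := by
  let I : Ideal ℤ_[p] := Ideal.span {(p : ℤ_[p])}
  have hI : Module.IsTorsionBySet ℤ_[p] N (I : Set ℤ_[p]) := by
    intro x ⟨a, ha⟩
    obtain ⟨b, rfl⟩ := Ideal.mem_span_singleton'.mp ha
    change (b * (p : ℤ_[p])) • x = 0
    rw [mul_smul, Nat.cast_smul_eq_nsmul, h, smul_zero]
  let _ : Module (ℤ_[p] ⧸ I) N := hI.module
  have : IsScalarTower ℤ_[p] (ℤ_[p] ⧸ I) N := hI.isScalarTower
  have : Module.Finite (ℤ_[p] ⧸ I) N := Module.Finite.of_restrictScalars_finite ℤ_[p] _ _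
  have : Finite (ℤ_[p] ⧸ I) := by
    have e : ℤ_[p] ⧸ I ≃ ZMod p := by
      have h1 : I = RingHom.ker (PadicInt.toZMod (p := p)) := by
        rw [PadicInt.ker_toZMod, PadicInt.maximalIdeal_eq_span_p]
      rw [h1]
      exact (RingHom.quotientKerEquivOfSurjective (ZMod.ringHom_surjective _)).toEquiv
    have : NeZero p := ⟨hp.out.ne_zero⟩
    exact Finite.of_equiv _ e.symm
  exact Module.finite_of_finite (ℤ_[p] ⧸ I)

/-- The reduction modulo `p` and the `p`-torsion of a finitely generated `ℤ_p`-module are finite. -/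
theorem finite_mod_and_torsion [Module ℤ_[p] A] [Module.Finite ℤ_[p] A] :
    (∃ s : Set A, s.Finite ∧ ∀ a, ∃ b ∈ s, ∃ c, a = b + p • c) ∧
      Finite {a : A // p • a = 0} := by
  constructor
  · let P : Submodule ℤ_[p] A := LinearMap.range (LinearMap.lsmul ℤ_[p] A (p : ℤ_[p]))
    have hfin : Finite (A ⧸ P) := by
      apply finite_of_smul_eq_zero p
      intro x
      obtain ⟨a, rfl⟩ := Submodule.Quotient.mk_surjective P x
      rw [← Submodule.Quotient.mk_smul, Submodule.Quotient.mk_eq_zero]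
      exact ⟨a, by rw [LinearMap.lsmul_apply, Nat.cast_smul_eq_nsmul]⟩
    refine ⟨Set.range (Quotient.out : A ⧸ P → A), Set.finite_range _, fun a => ?_⟩
    refine ⟨_, ⟨(Submodule.Quotient.mk a : A ⧸ P), rfl⟩, ?_⟩
    have h1 : (Submodule.Quotient.mk a : A ⧸ P) =
        Submodule.Quotient.mk (Quotient.out (Submodule.Quotient.mk a : A ⧸ P)) :=
      (Quotient.out_eq _).symm
    rw [Submodule.Quotient.eq] at h1
    obtain ⟨c, hc⟩ := h1
    refine ⟨c, ?_⟩
    rw [LinearMap.lsmul_apply, Nat.cast_smul_eq_nsmul] at hc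
    rw [hc]
    abel
  · let P : Submodule ℤ_[p] A := LinearMap.ker (LinearMap.lsmul ℤ_[p] A (p : ℤ_[p]))
    have : Finite P := by
      apply finite_of_smul_eq_zero p
      rintro ⟨x, hx⟩
      rw [LinearMap.mem_ker, LinearMap.lsmul_apply, Nat.cast_smul_eq_nsmul] at hx
      ext
      simpa using hx
    refine Finite.of_injective (β := P) (fun a => ⟨a.1, ?_⟩) (fun a b h => ?_)
    · rw [LinearMap.mem_ker, LinearMap.lsmul_apply, Nat.cast_smul_eq_nsmul]
      exact a.2
    · ext
      exact congrArg (fun q : P => (q : A)) h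

end

end Vale.Agent.P261
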