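import Vale.Agent.P261.H260.Chrom
import Vale.Agent.P261.H260.Complete

/-!
The finite-type question for the `K(n)`-local sphere: reduction to countability.
-/

set_option linter.unusedSectionVars false

open CategoryTheory Limits Pretriangulated MonoidalCategory

universe v u

namespace Vale.Agent.P261

variable {C : Type u} [Category.{v} C] [Preadditive C] [HasZeroObject C]
    [HasShift C ℤ] [∀ n : ℤ, (shiftFunctor C n).Additive] [Pretriangulated C]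
    [MonoidalCategory C]

/-- `Z` is of finite type: every homotopy group `π_t Z = [Σ^t 𝟙, Z]` is a finitely generated
`ℤ_p`-module. -/
def FiniteType (p : ℕ) [Fact p.Prime] (Z : C) : Prop :=
  ∀ t : ℤ, ∃ _ : Module ℤ_[p] ((𝟙_ C)⟦t⟧ ⟶ Z), Module.Finite ℤ_[p] ((𝟙_ C)⟦t⟧ ⟶ Z)

/-- The thick subcategory generated by a class `Q` of objects. -/
inductive Thick (Q : C → Prop) : C → Prop
  | of {X : C} (h : Q X) : Thick Q X
  | shift {X : C} (a : ℤ) (h : Thick Q X) : Thick Q (X⟦a⟧)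
  | cone {T : Triangle C} (hT : T ∈ distTriang C) (h₁ : Thick Q T.obj₁) (h₂ : Thick Q T.obj₂) :
      Thick Q T.obj₃
  | retract {X Y : C} (i : X ⟶ Y) (r : Y ⟶ X) (h : i ≫ r = 𝟙 X) (hY : Thick Q Y) : Thick Q X

lemma Thick.smallHom {P : Type v → Prop} (hP : IsSmallness P) {Q : C → Prop} {W : C}
    (hQ : ∀ X, Q X → SmallHom P W X) {Y : C} (hY : Thick Q Y) : SmallHom P W Y := by
  induction hY with
  | of h => exact hQ _ h
  | shift a _ ih => exact ih.shift_right hP a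
  | cone hT _ _ ih₁ ih₂ => exact SmallHom.target₃ hP hT ih₁ ih₂
  | retract i r h _ ih =>
    intro t
    exact hP.of_surjective (ih t) (fun f => f ≫ r) (fun f => ⟨f ≫ i, by simp [h]⟩)

lemma Thick.smallHom_left {P : Type v → Prop} (hP : IsSmallness P) {Q : C → Prop} {Z : C}
    (hQ : ∀ X, Q X → SmallHom P X Z) {W : C} (hW : Thick Q W) : SmallHom P W Z := by
  induction hW with
  | of h => exact hQ _ h
  | shift a _ ih => exact ih.shift_left hP a
  | cone hT _ _ ih₁ ih₂ => exact SmallHom.source₃ hP hT ih₁ ih₂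
  | retract i r h _ ih =>
    intro t
    exact hP.of_surjective (ih t) (fun f => i⟦t⟧' ≫ f) (fun f => ⟨r⟦t⟧' ≫ f, by
      beta_reduce
      rw [← Category.assoc, ← Functor.map_comp, h]; simp⟩)

variable [TensorTriangulated C]

lemma whisker_zsmul_id {K W : C} (c : ℤ) (hK : c • 𝟙 K = 0) : K ◁ (c • 𝟙 W) = 0 := by
  have h1 : K ◁ (c • 𝟙 W) = c • (K ◁ 𝟙 W) := (tensorLeft K).map_zsmul
  have h2 : (c • 𝟙 K) ▷ W = c • (𝟙 K ▷ W) := (tensorRight W).map_zsmul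
  rw [h1, MonoidalCategory.whiskerLeft_id, ← id_whiskerRight, ← h2, hK]
  exact MonoidalPreadditive.zero_whiskerRight

section

variable (p : ℕ) [hp : Fact p.Prime] {M : C} {a : 𝟙_ C ⟶ M} {b : M ⟶ (𝟙_ C)⟦(1 : ℤ)⟧}
  (hM : Triangle.mk ((p : ℤ) • 𝟙 (𝟙_ C)) a b ∈ distTriang C)
include hM

/-- Finite type implies that the mod `p` homotopy is finite. -/
theorem FiniteType.smallHom {Z : C} (h : FiniteType p Z) : SmallHom (fun A => Finite A) M Z := by
  rw [smallHom_iff isSmallness_finite]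
  intro i
  -- torsion
  have htors : Finite {f : 𝟙_ C ⟶ Z⟦i⟧ // p • f = 0} := by
    obtain ⟨m, hm⟩ := h (-i)
    have h1 := (finite_mod_and_torsion p (A := ((𝟙_ C)⟦-i⟧ ⟶ Z))).2
    have e := adjAdd (-i) (𝟙_ C) Z
    have h2 : Finite {f : 𝟙_ C ⟶ Z⟦-(-i)⟧ // p • f = 0} := by
      refine Finite.of_injective (β := {a : (𝟙_ C)⟦-i⟧ ⟶ Z // p • a = 0})
        (fun f => ⟨e.symm f.1, by rw [← map_nsmul, f.2, map_zero]⟩) (fun f g hfg => ?_)
      ext1
      exact e.symm.injective (congrArg Subtype.val hfg)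
    rwa [neg_neg] at h2
  -- cotorsion
  obtain ⟨s, hs, hs'⟩ : ∃ s : Set ((𝟙_ C)⟦(1 : ℤ)⟧ ⟶ Z⟦i⟧), s.Finite ∧
      ∀ f, ∃ g ∈ s, ∃ c, f = g + p • c := by
    obtain ⟨m, hm⟩ := h (-i + 1)
    obtain ⟨s, hs, hs'⟩ := (finite_mod_and_torsion p (A := ((𝟙_ C)⟦-i + 1⟧ ⟶ Z))).1
    -- `[𝟙[-i+1], Z] ≃ [𝟙[1], Z[i]]`
    let e₁ := adjAdd (-i) ((𝟙_ C)⟦(1 : ℤ)⟧) Z
    let u : (𝟙_ C)⟦-i + 1⟧ ≅ ((𝟙_ C)⟦(1 : ℤ)⟧)⟦-i⟧ :=
      (shiftFunctorAdd' C 1 (-i) (-i + 1) (by ring)).app (𝟙_ C)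
    have hi : -(-i) = i := neg_neg i
    have key : ∃ s : Set ((𝟙_ C)⟦(1 : ℤ)⟧ ⟶ Z⟦-(-i)⟧), s.Finite ∧
      ∀ f, ∃ g ∈ s, ∃ c, f = g + p • c := by
      refine ⟨(fun f => e₁ (u.inv ≫ f)) '' s, hs.image _, fun f => ?_⟩
      obtain ⟨g, hg, c, hc⟩ := hs' (u.hom ≫ e₁.symm f)
      refine ⟨_, ⟨g, hg, rfl⟩, e₁ (u.inv ≫ c), ?_⟩
      rw [← map_nsmul, ← map_add, ← Preadditive.comp_nsmul, ← Preadditive.comp_add, ← hc]
      simp
    rwa [hi] at key
  have : Finite s := hs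
  have hbp : ∀ c : (𝟙_ C)⟦(1 : ℤ)⟧ ⟶ Z⟦i⟧, p • (b ≫ c) = 0 := by
    intro c
    have h1 : b ≫ ((p : ℤ) • 𝟙 (𝟙_ C))⟦(1 : ℤ)⟧' = 0 := comp_distTriang_mor_zero₃₁ _ hM
    rw [Functor.map_zsmul, CategoryTheory.Functor.map_id, Preadditive.comp_zsmul,
      Category.comp_id] at h1
    rw [← natCast_zsmul, ← Preadditive.zsmul_comp, h1, zero_comp]
  let D : AddSubgroup (𝟙_ C ⟶ Z⟦i⟧) :=
    { carrier := {f | p • f = 0}
      zero_mem' := smul_zero _
      add_mem' := fun {x y} hx hy => by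
        have hx' : p • x = 0 := hx
        have hy' : p • y = 0 := hy
        change p • (x + y) = 0
        rw [smul_add, hx', hy', add_zero]
      neg_mem' := fun {x} hx => by
        have hx' : p • x = 0 := hx
        change p • (-x) = 0
        rw [smul_neg, hx', neg_zero] }
  have hD : Finite D := htors
  have hap : ∀ f : M ⟶ Z⟦i⟧, p • (a ≫ f) = 0 := by
    intro f
    have h1 : ((p : ℤ) • 𝟙 (𝟙_ C)) ≫ a = 0 := comp_distTriang_mor_zero₁₂ _ hM
    rw [Preadditive.zsmul_comp, Category.id_comp] at h1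
    rw [← natCast_zsmul, ← Preadditive.zsmul_comp, h1, zero_comp]
  refine IsSmallness.of_exact isSmallness_finite (A := ULift.{v} s) (D := D) inferInstance hD
    (fun σ => b ≫ σ.down.1)
    (AddMonoidHom.mk' (fun f => (⟨a ≫ f, hap f⟩ : D)) (fun f g => by ext; simp)) (fun f hf => ?_)
  have hf' : a ≫ f = 0 := congrArg Subtype.val hf
  obtain ⟨χ, hχ⟩ : ∃ χ : (𝟙_ C)⟦(1 : ℤ)⟧ ⟶ Z⟦i⟧, f = b ≫ χ := Triangle.yoneda_exact₃ _ hM f hf'
  obtain ⟨σ, hσ, c, hc⟩ := hs' χ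
  refine ⟨⟨⟨σ, hσ⟩⟩, ?_⟩
  change b ≫ σ = f
  rw [hχ, hc, Preadditive.comp_add, Preadditive.comp_nsmul, hbp, add_zero]

variable [HasCoproductsOfShape ℕ C] [∀ X : C, PreservesColimitsOfShape (Discrete ℕ) (tensorLeft X)]

/-- If `p = 0` on `K`, `Z` is `K`-local and has finite mod `p` homotopy then `Z` is of finite
type. -/
theorem finiteType_of_smallHom {K Z : C} (hK : (p : ℤ) • 𝟙 K = 0)
    (hZ : IsLocal (fun _ : Unit => K) Z) (h : SmallHom (fun A => Finite A) M Z) :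
    FiniteType p Z := by
  intro t
  obtain ⟨h1, h2⟩ := telescope hZ (fun _ => (𝟙_ C)⟦t⟧) (fun _ => (p : ℤ) • 𝟙 _)
    (fun _ => whisker_zsmul_id (p : ℤ) hK)
  have hsm : ∀ x : (𝟙_ C)⟦t⟧ ⟶ Z, ((p : ℤ) • 𝟙 ((𝟙_ C)⟦t⟧)) ≫ x = p • x := fun x => by
    rw [Preadditive.zsmul_comp, Category.id_comp, natCast_zsmul]
  refine exists_module_finite p ?_ (fun x hx => h1 x (fun k => by rw [hsm]; exact hx k))
    (fun y => ?_)
  · -- finiteness modulo `p`
    let δ : (𝟙_ C ⟶ Z⟦-t⟧) →+ (M ⟶ (Z⟦-t⟧)⟦(1 : ℤ)⟧) :=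
      AddMonoidHom.mk' (fun α => b ≫ α⟦(1 : ℤ)⟧') (fun α β => by
        rw [Functor.map_add, Preadditive.comp_add])
    have hfin : Finite (M ⟶ (Z⟦-t⟧)⟦(1 : ℤ)⟧) :=
      (smallHom_iff isSmallness_finite).mp (h.shift_right isSmallness_finite (-t)) 1
    obtain ⟨s, hs, hs'⟩ := exists_finite_cover (fun β : 𝟙_ C ⟶ Z⟦-t⟧ => p • β) δ (fun α hα => by
      obtain ⟨β, hβ⟩ : ∃ β : 𝟙_ C ⟶ Z⟦-t⟧, α = ((p : ℤ) • 𝟙 (𝟙_ C)) ≫ β :=
        exists_extension hM α hα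
      exact ⟨β, by rw [hβ, Preadditive.zsmul_comp, Category.id_comp, natCast_zsmul]⟩)
    let e := adjAdd t (𝟙_ C) Z
    refine ⟨e.symm '' s, hs.image _, fun α => ?_⟩
    obtain ⟨β, hβ, c, hc⟩ := hs' (e α)
    refine ⟨_, ⟨β, hβ, rfl⟩, e.symm c, ?_⟩
    rw [← map_nsmul, ← map_add, ← hc, AddEquiv.symm_apply_apply]
  · obtain ⟨x, hx⟩ := h2 y
    exact ⟨x, fun k => by rw [hx k, hsm]⟩

end

/-! ### The comparison of `L_{K(n)} S` and `L_{n-1} L_{K(n)} S` -/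

lemma isBousfieldLocalization_id {ι : Type} {E : ι → C} {X : C} (h : IsLocal E X) :
    IsBousfieldLocalization E (𝟙 X) :=
  ⟨fun i => by rw [MonoidalCategory.whiskerLeft_id]; infer_instance, h⟩

/-- The localization of an acyclic object is zero. -/
lemma IsBousfieldLocalization.isZero {ι : Type} {E : ι → C} {X Y : C} {f : X ⟶ Y}
    (hf : IsBousfieldLocalization E f) (hX : ∀ i, IsZero (E i ⊗ X)) : IsZero Y := by
  rw [IsZero.iff_id_eq_zero]
  refine hf.2 Y (fun i => ?_) _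
  have := hf.1 i
  exact (hX i).of_iso (asIso (E i ◁ f)).symm

lemma isZero_tensor_left {X Y : C} (h : IsZero X) : IsZero (X ⊗ Y) := by
  rw [IsZero.iff_id_eq_zero] at h ⊢
  rw [← id_whiskerRight, h]
  exact MonoidalPreadditive.zero_whiskerRight

/-- `K n ⊗ Y = 0` if `Y` is local with respect to `K 0, …, K (n - 1)`. -/
lemma isZero_tensor_of_smashing {K : ℕ → C} (hK : ∀ i j, i ≠ j → IsZero (K i ⊗ K j))
    {j m : ℕ} (hjm : j < m)
    (hs : ∀ {X Y : C} (f : X ⟶ Y), IsBousfieldLocalization (upTo K j) f →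
      ∀ Z : C, IsBousfieldLocalization (upTo K j) (Z ◁ f))
    {Y : C} (hY : IsLocal (upTo K j) Y) : IsZero (K m ⊗ Y) := by
  refine (hs (𝟙 Y) (isBousfieldLocalization_id hY) (K m)).isZero (fun i => ?_)
  have h1 : IsZero (K i ⊗ K m) := hK _ _ (by have := i.2; omega)
  exact (isZero_tensor_left (Y := Y) h1).of_iso (α_ (K i) (K m) Y).symm

section compare

variable {K : ℕ → C} {n : ℕ}

/-- The comparison. Here `X = L_n S`, `X' = L_{n-1} S`, `Z = L_{K(n)} S`, `Y = L_{n-1} Z`. -/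
theorem compare (hn : 1 ≤ n) (hKK : ∀ i j, i ≠ j → IsZero (K i ⊗ K j))
    (hs : ∀ {X Y : C} (f : X ⟶ Y), IsBousfieldLocalization (upTo K (n - 1)) f →
      ∀ Z : C, IsBousfieldLocalization (upTo K (n - 1)) (Z ◁ f))
    (hex : ∀ W : C, ∃ (L : C) (f : W ⟶ L), IsBousfieldLocalization (upTo K (n - 1)) f)
    {S X X' Z Y : C} {l : S ⟶ X} (hl : IsBousfieldLocalization (upTo K n) l)
    {l' : S ⟶ X'} (hl' : IsBousfieldLocalization (upTo K (n - 1)) l')
    {z : S ⟶ Z} (hz : IsBousfieldLocalization (fun _ : Unit => K n) z)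
    {y : Z ⟶ Y} (hy : IsBousfieldLocalization (upTo K (n - 1)) y)
    {P : Type v → Prop} (hP : IsSmallness P) {W : C} (hX : SmallHom P W X)
    (hX' : SmallHom P W X') : SmallHom P W Z ↔ SmallHom P W Y := by
  -- locality of `Z` for the big family
  have hZn : IsLocal (upTo K n) Z := fun V hV g => hz.2 V (fun _ => hV ⟨n, Nat.lt_succ_self n⟩) g
  have hloc : ∀ {V : C}, IsLocal (upTo K (n - 1)) V → IsLocal (upTo K n) V := fun hV V' hV' g =>
    hV V' (fun i => hV' ⟨i.1, by have := i.2; omega⟩) g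
  -- the map `u : X ⟶ Z`
  obtain ⟨u, hu⟩ := exists_extension_of_equivalence l hl.1 hZn z
  have huK : IsIso (K n ◁ u) := by
    have h1 : IsIso (K n ◁ l) := hl.1 ⟨n, Nat.lt_succ_self n⟩
    have h2 : IsIso (K n ◁ z) := hz.1 ()
    rw [← hu, MonoidalCategory.whiskerLeft_comp] at h2
    exact IsIso.of_isIso_comp_left (K n ◁ l) (K n ◁ u)
  -- the cofibre `Q`
  obtain ⟨Q, q, r, hQ⟩ := distinguished_cocone_triangle u
  have hQK : IsZero (K n ⊗ Q) := isZero_tensor_cone hQ huK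
  have hQn : IsLocal (upTo K n) Q := IsLocal.obj₃ hQ hl.2 hZn
  have hQloc : IsLocal (upTo K (n - 1)) Q := by
    obtain ⟨L, f, hf⟩ := hex Q
    have hLK : IsZero (K n ⊗ L) := isZero_tensor_of_smashing hKK (by omega) hs hf.2
    have hiso : IsIso f := by
      refine isIso_of_equivalence (E := upTo K n) f (fun i => ?_) hQn (hloc hf.2)
      by_cases hi : (i : ℕ) = n
      · have h1 : upTo K n i = K n := by simp [upTo, hi]
        rw [h1]
        exact ⟨0, hQK.eq_of_src _ _, hLK.eq_of_src _ _⟩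
      · exact hf.1 ⟨i.1, by have := i.2; omega⟩
    exact hf.2.of_iso (asIso f).symm
  -- the map `Y ⟶ Q` and its fibre
  obtain ⟨ρ, hρ⟩ := exists_extension_of_equivalence y hy.1 hQloc q
  obtain ⟨F, i, j, hF⟩ := distinguished_cocone_triangle₁ ρ
  have hFloc : IsLocal (upTo K (n - 1)) F := IsLocal.obj₁ hF hy.2 hQloc
  obtain ⟨c, hc₁, hc₂⟩ : ∃ c : X ⟶ F, u ≫ y = c ≫ i ∧ r ≫ c⟦(1 : ℤ)⟧' = 𝟙 Q ≫ j :=
    complete_distinguished_triangle_morphism₁ _ _ hQ hF y (𝟙 Q) (by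
      change q ≫ 𝟙 Q = y ≫ ρ
      rw [Category.comp_id, hρ])
  have hciso : ∀ k : Fin (n - 1 + 1), IsIso (upTo K (n - 1) k ◁ c) := by
    intro k
    let A := upTo K (n - 1) k
    have hT₁ := TensorTriangulated.distinguished A _ hQ
    have hT₂ := TensorTriangulated.distinguished A _ hF
    let φ : Triangle.mk (A ◁ u) (A ◁ q) ((A ◁ r) ≫ (TensorTriangulated.shiftIso A X).hom) ⟶
        Triangle.mk (A ◁ i) (A ◁ ρ) ((A ◁ j) ≫ (TensorTriangulated.shiftIso A F).hom) :=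
      { hom₁ := A ◁ c
        hom₂ := A ◁ y
        hom₃ := A ◁ (𝟙 Q)
        comm₁ := by
          change (A ◁ u) ≫ (A ◁ y) = (A ◁ c) ≫ (A ◁ i)
          rw [← MonoidalCategory.whiskerLeft_comp, ← MonoidalCategory.whiskerLeft_comp]
          exact congrArg (fun m => A ◁ m) hc₁
        comm₂ := by
          change (A ◁ q) ≫ (A ◁ (𝟙 Q)) = (A ◁ y) ≫ (A ◁ ρ)
          rw [← MonoidalCategory.whiskerLeft_comp, ← MonoidalCategory.whiskerLeft_comp,
            Category.comp_id, hρ]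
        comm₃ := by
          change ((A ◁ r) ≫ (TensorTriangulated.shiftIso A X).hom) ≫ (A ◁ c)⟦(1 : ℤ)⟧' =
            (A ◁ (𝟙 Q)) ≫ (A ◁ j) ≫ (TensorTriangulated.shiftIso A F).hom
          rw [Category.assoc, ← TensorTriangulated.shiftIso_natural, ← Category.assoc,
            ← MonoidalCategory.whiskerLeft_comp, ← Category.assoc (A ◁ (𝟙 Q)),
            ← MonoidalCategory.whiskerLeft_comp]
          exact congrArg (fun m => (A ◁ m) ≫ (TensorTriangulated.shiftIso A F).hom) hc₂ }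
    have h2 : IsIso φ.hom₂ := hy.1 k
    have h3 : IsIso φ.hom₃ := by
      change IsIso (A ◁ (𝟙 Q))
      rw [MonoidalCategory.whiskerLeft_id]
      infer_instance
    exact isIso₁_of_isIso₂₃ φ hT₁ hT₂ h2 h3
  -- `F` is the localization of `S`
  have hlc : IsBousfieldLocalization (upTo K (n - 1)) (l ≫ c) := by
    refine ⟨fun k => ?_, hFloc⟩
    have h1 : IsIso (upTo K (n - 1) k ◁ l) := hl.1 ⟨k.1, by have := k.2; omega⟩
    have h2 := hciso k
    rw [MonoidalCategory.whiskerLeft_comp]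
    infer_instance
  obtain ⟨ε⟩ := hl'.nonempty_iso hlc
  have hF' : SmallHom P W F := hX'.of_iso_right hP ε
  constructor
  · intro h
    have h1 : SmallHom P W Q := SmallHom.target₃ hP hQ hX h
    exact SmallHom.target₂ hP hF hF' h1
  · intro h
    have h1 : SmallHom P W Q := SmallHom.target₃ hP hF hF' h
    exact SmallHom.target₂ hP hQ hX h1

end compare

end Vale.Agent.P261
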