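import Mathlib.CategoryTheory.Triangulated.Pretriangulated
import Mathlib.Data.Countable.Basic
import Mathlib.Algebra.Group.Equiv.Basic
import Mathlib.Tactic

/-!
Finiteness and countability of groups of morphisms in triangulated categories.
-/

set_option linter.unusedSectionVars false

open CategoryTheory Limits Pretriangulated

universe v u

namespace Vale.Agent.P261

/-- A smallness condition on types (finite, or countable): the image of a product of two small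
types is small. -/
def IsSmallness (P : Type v → Prop) : Prop :=
  ∀ {A B D : Type v}, P A → P D → ∀ s : A × D → B, Function.Surjective s → P B

lemma isSmallness_finite : IsSmallness.{v} (fun A => Finite A) := by
  intro A B D hA hD s hs
  have := hA
  have := hD
  exact Finite.of_surjective s hs

lemma isSmallness_countable : IsSmallness.{v} (fun A => Countable A) := by
  intro A B D hA hD s hs
  have := hA
  have := hD
  exact hs.countable

lemma IsSmallness.of_surjective {P : Type v → Prop} (hP : IsSmallness P) {A B : Type v}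
    (hA : P A) (s : A → B) (hs : Function.Surjective s) : P B :=
  hP hA hA (fun q => s q.1) (fun b => by
    obtain ⟨a, rfl⟩ := hs b
    exact ⟨(a, a), rfl⟩)

lemma IsSmallness.of_equiv {P : Type v → Prop} (hP : IsSmallness P) {A B : Type v}
    (hA : P A) (e : A ≃ B) : P B := hP.of_surjective hA e e.surjective

/-- The middle term of an exact sequence with small ends is small. -/
lemma IsSmallness.of_exact {P : Type v → Prop} (hP : IsSmallness P) {A B D : Type v}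
    [AddCommGroup B] [AddCommGroup D] (hA : P A) (hD : P D) (f : A → B) (g : B →+ D)
    (h : ∀ b, g b = 0 → ∃ a, f a = b) : P B := by
  classical
  refine hP hA hD (fun q => f q.1 + if hq : ∃ b, g b = q.2 then hq.choose else 0) (fun b => ?_)
  have hq : ∃ b', g b' = g b := ⟨b, rfl⟩
  obtain ⟨a, ha⟩ := h (b - hq.choose) (by rw [map_sub, hq.choose_spec, sub_self])
  refine ⟨(a, g b), ?_⟩
  simp only [dif_pos hq]
  rw [ha]
  abel

lemma exists_finite_cover {A : Type*} {B : Type*} {D : Type*} [AddCommGroup A] [AddCommGroup B]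
    [AddCommGroup D] [Finite D] (w : B → A) (δ : A →+ D) (h : ∀ a, δ a = 0 → ∃ c, w c = a) :
    ∃ s : Set A, s.Finite ∧ ∀ a, ∃ b ∈ s, ∃ c, a = b + w c := by
  classical
  refine ⟨Set.range (fun q : D => if hq : ∃ b, δ b = q then hq.choose else 0),
    Set.finite_range _, fun a => ?_⟩
  have hq : ∃ b', δ b' = δ a := ⟨a, rfl⟩
  obtain ⟨c, hc⟩ := h (a - hq.choose) (by rw [map_sub, hq.choose_spec, sub_self])
  refine ⟨_, ⟨δ a, rfl⟩, c, ?_⟩
  simp only [dif_pos hq]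
  rw [hc]
  abel

variable {C : Type u} [Category.{v} C] [Preadditive C] [HasZeroObject C]
    [HasShift C ℤ] [∀ n : ℤ, (shiftFunctor C n).Additive] [Pretriangulated C]

/-- The adjunction between the shifts by `t` and `-t`. -/
noncomputable def adjEquiv (t : ℤ) (W Z : C) : (W⟦t⟧ ⟶ Z) ≃ (W ⟶ Z⟦-t⟧) :=
  (shiftEquiv C t).toAdjunction.homEquiv W Z

lemma exists_adjEquiv (t : ℤ) (W Z : C) :
    ∃ u : W ⟶ (W⟦t⟧)⟦-t⟧, ∀ f : W⟦t⟧ ⟶ Z, adjEquiv t W Z f = u ≫ f⟦-t⟧' :=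
  ⟨(shiftEquiv C t).toAdjunction.unit.app W,
    fun f => (shiftEquiv C t).toAdjunction.homEquiv_unit W Z f⟩

/-- The adjunction between the shifts by `t` and `-t`, as an additive equivalence. -/
noncomputable def adjAdd (t : ℤ) (W Z : C) : (W⟦t⟧ ⟶ Z) ≃+ (W ⟶ Z⟦-t⟧) :=
  { adjEquiv t W Z with
    map_add' := fun f g => by
      obtain ⟨u, hu⟩ := exists_adjEquiv t W Z
      change adjEquiv t W Z (f + g) = adjEquiv t W Z f + adjEquiv t W Z g
      rw [hu, hu, hu, Functor.map_add, Preadditive.comp_add] }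

lemma adjAdd_naturality (t : ℤ) {W W' : C} (Z : C) (f : W' ⟶ W) (φ : W⟦t⟧ ⟶ Z) :
    adjAdd t W' Z (f⟦t⟧' ≫ φ) = f ≫ adjAdd t W Z φ :=
  (shiftEquiv C t).toAdjunction.homEquiv_naturality_left f φ

lemma adjAdd_symm_naturality (t : ℤ) {W W' : C} (Z : C) (f : W' ⟶ W) (φ : W ⟶ Z⟦-t⟧) :
    (adjAdd t W' Z).symm (f ≫ φ) = f⟦t⟧' ≫ (adjAdd t W Z).symm φ := by
  apply (adjAdd t W' Z).injective
  rw [adjAdd_naturality, AddEquiv.apply_symm_apply, AddEquiv.apply_symm_apply]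

/-- All the groups `[W⟦t⟧, Z]` are small. -/
def SmallHom (P : Type v → Prop) (W Z : C) : Prop := ∀ t : ℤ, P (W⟦t⟧ ⟶ Z)

section

variable {P : Type v → Prop} (hP : IsSmallness P)
include hP

lemma smallHom_iff {W Z : C} : SmallHom P W Z ↔ ∀ i : ℤ, P (W ⟶ Z⟦i⟧) := by
  constructor
  · intro h i
    have := hP.of_equiv (h (-i)) (adjAdd (-i) W Z).toEquiv
    rwa [neg_neg] at this
  · intro h t
    exact hP.of_equiv (h (-t)) (adjAdd t W Z).symm.toEquiv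

lemma SmallHom.of_iso_right {W Z Z' : C} (h : SmallHom P W Z) (e : Z ≅ Z') : SmallHom P W Z' :=
  fun t => hP.of_surjective (h t) (fun f => f ≫ e.hom) (fun f => ⟨f ≫ e.inv, by simp⟩)

lemma SmallHom.of_iso_left {W W' Z : C} (h : SmallHom P W Z) (e : W ≅ W') : SmallHom P W' Z :=
  fun t => hP.of_surjective (h t) (fun f => e.inv⟦t⟧' ≫ f) (fun f => ⟨e.hom⟦t⟧' ≫ f, by
    beta_reduce
    rw [← Category.assoc, ← Functor.map_comp]; simp⟩)

lemma SmallHom.shift_right {W Z : C} (h : SmallHom P W Z) (a : ℤ) : SmallHom P W (Z⟦a⟧) := by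
  rw [smallHom_iff hP] at h ⊢
  intro i
  exact hP.of_surjective (h (a + i)) (fun f => f ≫ (shiftFunctorAdd C a i).hom.app Z)
    (fun f => ⟨f ≫ (shiftFunctorAdd C a i).inv.app Z, by simp⟩)

lemma SmallHom.shift_left {W Z : C} (h : SmallHom P W Z) (a : ℤ) : SmallHom P (W⟦a⟧) Z := by
  intro t
  exact hP.of_surjective (h (a + t)) (fun f => (shiftFunctorAdd C a t).inv.app W ≫ f)
    (fun f => ⟨(shiftFunctorAdd C a t).hom.app W ≫ f, by simp⟩)

lemma SmallHom.of_shift_left {W Z : C} (a : ℤ) (h : SmallHom P (W⟦a⟧) Z) : SmallHom P W Z :=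
  (h.shift_left hP (-a)).of_iso_left hP (shiftShiftNeg W a)

lemma SmallHom.of_shift_right {W Z : C} (a : ℤ) (h : SmallHom P W (Z⟦a⟧)) : SmallHom P W Z :=
  (h.shift_right hP (-a)).of_iso_right hP (shiftShiftNeg Z a)

/-- Exactness in the source. -/
lemma SmallHom.source₂ {T : Triangle C} (hT : T ∈ distTriang C) {Z : C}
    (h₁ : SmallHom P T.obj₁ Z) (h₃ : SmallHom P T.obj₃ Z) : SmallHom P T.obj₂ Z := by
  rw [smallHom_iff hP] at h₁ h₃ ⊢
  intro i
  refine hP.of_exact (h₃ i) (h₁ i) (fun f => T.mor₂ ≫ f)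
    (AddMonoidHom.mk' (fun f : T.obj₂ ⟶ Z⟦i⟧ => T.mor₁ ≫ f) (fun f g => by simp)) (fun f hf => ?_)
  obtain ⟨g, hg⟩ := Triangle.yoneda_exact₂ T hT f hf
  exact ⟨g, hg.symm⟩

lemma SmallHom.source₃ {T : Triangle C} (hT : T ∈ distTriang C) {Z : C}
    (h₁ : SmallHom P T.obj₁ Z) (h₂ : SmallHom P T.obj₂ Z) : SmallHom P T.obj₃ Z :=
  SmallHom.source₂ hP (rot_of_distTriang T hT) h₂ (h₁.shift_left hP 1)

lemma SmallHom.source₁ {T : Triangle C} (hT : T ∈ distTriang C) {Z : C}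
    (h₂ : SmallHom P T.obj₂ Z) (h₃ : SmallHom P T.obj₃ Z) : SmallHom P T.obj₁ Z :=
  SmallHom.source₂ hP (inv_rot_of_distTriang T hT) (h₃.shift_left hP (-1)) h₂

/-- Exactness in the target. -/
lemma SmallHom.target₂ {T : Triangle C} (hT : T ∈ distTriang C) {W : C}
    (h₁ : SmallHom P W T.obj₁) (h₃ : SmallHom P W T.obj₃) : SmallHom P W T.obj₂ := by
  intro t
  refine hP.of_exact (h₁ t) (h₃ t) (fun f => f ≫ T.mor₁)
    (AddMonoidHom.mk' (fun f : W⟦t⟧ ⟶ T.obj₂ => f ≫ T.mor₂) (fun f g => by simp)) (fun f hf => ?_)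
  obtain ⟨g, hg⟩ := Triangle.coyoneda_exact₂ T hT f hf
  exact ⟨g, hg.symm⟩

lemma SmallHom.target₃ {T : Triangle C} (hT : T ∈ distTriang C) {W : C}
    (h₁ : SmallHom P W T.obj₁) (h₂ : SmallHom P W T.obj₂) : SmallHom P W T.obj₃ :=
  SmallHom.target₂ hP (rot_of_distTriang T hT) h₂ (h₁.shift_right hP 1)

lemma SmallHom.target₁ {T : Triangle C} (hT : T ∈ distTriang C) {W : C}
    (h₂ : SmallHom P W T.obj₂) (h₃ : SmallHom P W T.obj₃) : SmallHom P W T.obj₁ :=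
  SmallHom.target₂ hP (inv_rot_of_distTriang T hT) (h₃.shift_right hP (-1)) h₂

end

/-- Extension of morphisms. -/
lemma exists_extension {T : Triangle C} (hT : T ∈ distTriang C) {Z : C} (α : T.obj₁ ⟶ Z)
    (h : T.mor₃ ≫ α⟦(1 : ℤ)⟧' = 0) : ∃ β : T.obj₂ ⟶ Z, α = T.mor₁ ≫ β := by
  obtain ⟨γ, hγ⟩ : ∃ γ : T.obj₂⟦(1 : ℤ)⟧ ⟶ Z⟦(1 : ℤ)⟧, α⟦(1 : ℤ)⟧' = (-T.mor₁⟦(1 : ℤ)⟧') ≫ γ :=
    Triangle.yoneda_exact₃ T.rotate (rot_of_distTriang T hT) (α⟦(1 : ℤ)⟧') h
  obtain ⟨γ', hγ'⟩ : ∃ γ' : T.obj₂ ⟶ Z, γ'⟦(1 : ℤ)⟧' = γ :=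
    (shiftFunctor C (1 : ℤ)).map_surjective γ
  refine ⟨-γ', ?_⟩
  apply (shiftFunctor C (1 : ℤ)).map_injective
  rw [hγ, ← hγ', Functor.map_comp, Functor.map_neg]
  simp

section selfMap

variable {W W' : C} {d : ℤ} (w : W⟦d⟧ ⟶ W)

/-- The self map `w : Σ^d W ⟶ W`, shifted to a map `Σ^a W ⟶ Σ^b W` with `a = d + b`. -/
noncomputable def shiftMap (a b : ℤ) (h : d + b = a) : W⟦a⟧ ⟶ W⟦b⟧ :=
  (shiftFunctorAdd' C d b a h).hom.app W ≫ w⟦b⟧'

variable {w} {g : W ⟶ W'} {e : W' ⟶ (W⟦d⟧)⟦(1 : ℤ)⟧}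
  (hT : Triangle.mk w g e ∈ distTriang C)
include hT

/-- The kernel of `w^*` comes from the cofibre. -/
lemma exists_of_shiftMap_comp_eq_zero {Z : C} (a b : ℤ) (h : d + b = a) (φ : W⟦b⟧ ⟶ Z)
    (hφ : shiftMap w a b h ≫ φ = 0) : ∃ ψ : W'⟦b⟧ ⟶ Z, g⟦b⟧' ≫ ψ = φ := by
  have h1 : w⟦b⟧' ≫ φ = 0 := by
    rw [shiftMap, Category.assoc] at hφ
    rwa [Preadditive.IsIso.comp_left_eq_zero] at hφ
  have h2 : w ≫ adjAdd b W Z φ = 0 := by
    rw [← adjAdd_naturality, h1, map_zero]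
  obtain ⟨ψ, hψ⟩ : ∃ ψ : W' ⟶ Z⟦-b⟧, adjAdd b W Z φ = g ≫ ψ :=
    Triangle.yoneda_exact₂ _ hT _ h2
  refine ⟨(adjAdd b W' Z).symm ψ, ?_⟩
  rw [← adjAdd_symm_naturality]
  apply (adjAdd b W Z).injective
  rw [AddEquiv.apply_symm_apply]
  exact hψ.symm

/-- The obstruction to extend along `w`. -/
noncomputable def cokerMap (e : W' ⟶ (W⟦d⟧)⟦(1 : ℤ)⟧) (Z : C) (a b : ℤ) (h : d + b = a) :
    (W⟦a⟧ ⟶ Z) →+ (W' ⟶ (Z⟦-b⟧)⟦(1 : ℤ)⟧) :=
  AddMonoidHom.mk' (fun α => e ≫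
    (adjAdd b (W⟦d⟧) Z ((shiftFunctorAdd' C d b a h).inv.app W ≫ α))⟦(1 : ℤ)⟧')
    (fun α β => by
      rw [Preadditive.comp_add, map_add, Functor.map_add, Preadditive.comp_add])

lemma exists_of_cokerMap_eq_zero {Z : C} (a b : ℤ) (h : d + b = a) (α : W⟦a⟧ ⟶ Z)
    (hα : cokerMap e Z a b h α = 0) : ∃ β : W⟦b⟧ ⟶ Z, shiftMap w a b h ≫ β = α := by
  obtain ⟨β, hβ⟩ : ∃ β : W ⟶ Z⟦-b⟧,
      adjAdd b (W⟦d⟧) Z ((shiftFunctorAdd' C d b a h).inv.app W ≫ α) = w ≫ β :=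
    exists_extension hT (adjAdd b (W⟦d⟧) Z ((shiftFunctorAdd' C d b a h).inv.app W ≫ α)) hα
  refine ⟨(adjAdd b W Z).symm β, ?_⟩
  have h1 : w⟦b⟧' ≫ (adjAdd b W Z).symm β = (shiftFunctorAdd' C d b a h).inv.app W ≫ α := by
    rw [← adjAdd_symm_naturality]
    apply (adjAdd b _ Z).injective
    rw [AddEquiv.apply_symm_apply]
    exact hβ.symm
  rw [shiftMap, Category.assoc, h1]
  simp

variable {P : Type v → Prop} (hP : IsSmallness P)
include hP

lemma small_step_down {Z : C} (hW' : SmallHom P W' Z) (a b : ℤ) (h : d + b = a)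
    (ha : P (W⟦a⟧ ⟶ Z)) : P (W⟦b⟧ ⟶ Z) :=
  hP.of_exact (hW' b) ha (fun ψ => g⟦b⟧' ≫ ψ)
    (AddMonoidHom.mk' (fun φ : W⟦b⟧ ⟶ Z => shiftMap w a b h ≫ φ) (fun f g => by simp))
    (fun φ hφ => exists_of_shiftMap_comp_eq_zero hT a b h φ hφ)

lemma small_step_up {Z : C} (hW' : SmallHom P W' Z) (a b : ℤ) (h : d + b = a)
    (hb : P (W⟦b⟧ ⟶ Z)) : P (W⟦a⟧ ⟶ Z) := by
  have h1 : P (W' ⟶ (Z⟦-b⟧)⟦(1 : ℤ)⟧) :=
    (smallHom_iff hP).mp (hW'.shift_right hP (-b)) 1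
  exact hP.of_exact hb h1 (fun β => shiftMap w a b h ≫ β) (cokerMap e Z a b h)
    (fun α hα => exists_of_cokerMap_eq_zero hT a b h α hα)

/-- If the maps out of the cofibre are small, then it suffices to know the smallness of the maps
out of `W` in the degrees `0 ≤ t < d`. -/
lemma smallHom_of_range {Z : C} (hd : 0 < d) (hW' : SmallHom P W' Z)
    (h : ∀ t : ℤ, 0 ≤ t → t < d → P (W⟦t⟧ ⟶ Z)) : SmallHom P W Z := by
  have hup : ∀ (k : ℕ) (t : ℤ), 0 ≤ t → t < d → P (W⟦t + k * d⟧ ⟶ Z) := by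
    intro k
    induction k with
    | zero => intro t h0 h1; simpa using h t h0 h1
    | succ k ih =>
      intro t h0 h1
      exact small_step_up hT hP hW' _ _ (by push_cast; ring) (ih t h0 h1)
  have hdown : ∀ (k : ℕ) (t : ℤ), 0 ≤ t → t < d → P (W⟦t - k * d⟧ ⟶ Z) := by
    intro k
    induction k with
    | zero => intro t h0 h1; simpa using h t h0 h1
    | succ k ih =>
      intro t h0 h1
      exact small_step_down hT hP hW' _ _ (by push_cast; ring) (ih t h0 h1)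
  intro t
  have h0 := Int.emod_nonneg t hd.ne'
  have h1 := Int.emod_lt_of_pos t hd
  have h2 := Int.emod_add_mul_ediv t d
  rcases le_or_gt 0 (t / d) with h3 | h3
  · obtain ⟨k, hk⟩ := Int.eq_ofNat_of_zero_le h3
    have := hup k (t % d) h0 h1
    have h4 : t % d + k * d = t := by rw [← hk]; linarith [mul_comm d (t / d)]
    rwa [h4] at this
  · obtain ⟨k, hk⟩ := Int.eq_ofNat_of_zero_le (show 0 ≤ -(t / d) by omega)
    have := hdown k (t % d) h0 h1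
    have h4 : t % d - k * d = t := by rw [← hk]; linarith [mul_comm d (t / d)]
    rwa [h4] at this

end selfMap

end Vale.Agent.P261
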